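import Mathlib

/-!
Colour invariance along the orbits of a finite two-group of symmetries: copies of a finite configuration on which
prescribed classes are monochromatic, and the merging of two classes exchanged by a symmetry.
-/

open Finset

namespace Vale.Agent.P058.Kite

/-- Every finite colouring of some Euclidean space has a copy of the configuration with distances `d`
on which points of equal key get equal colours. -/
def Achieved {P κ : Type} (d : P → P → ℝ) (φ : P → κ) : Prop :=
  ∀ (C : Type) [Finite C], ∃ (ι : Type) (_ : Fintype ι), ∀ c : EuclideanSpace ℝ ι → C,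
    ∃ f : P → EuclideanSpace ℝ ι, (∀ p q, dist (f p) (f q) = d p q) ∧
      ∀ p q, φ p = φ q → c (f p) = c (f q)

variable {P κ : Type} {d : P → P → ℝ} {φ : P → κ}

theorem Achieved.mono {κ' : Type} {φ' : P → κ'} (h : Achieved d φ)
    (hle : ∀ p q, φ' p = φ' q → φ p = φ q) : Achieved d φ' := by
  intro C _
  obtain ⟨ι, inst, hι⟩ := h C
  refine ⟨ι, inst, fun c => ?_⟩
  obtain ⟨f, hf, hm⟩ := hι c
  exact ⟨f, hf, fun p q hpq => hm p q (hle p q hpq)⟩

theorem achieved_id {ι : Type} [Fintype ι] (v : P → EuclideanSpace ℝ ι)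
    (hv : ∀ p q, dist (v p) (v q) = d p q) : Achieved d (fun p => p) :=
  fun _ _ => ⟨ι, ‹_›, fun _ => ⟨v, hv, fun p q (h : p = q) => by rw [h]⟩⟩

variable [Finite P]

/-- By compactness the copies can be taken in a finite set. -/
theorem Achieved.witness (h : Achieved d φ) (C : Type) [Finite C] [Nonempty C] :
    ∃ (ι : Type) (_ : Fintype ι) (A : Finset (EuclideanSpace ℝ ι)),
      ∀ c : EuclideanSpace ℝ ι → C, ∃ f : P → EuclideanSpace ℝ ι, (∀ p, f p ∈ A) ∧
        (∀ p q, dist (f p) (f q) = d p q) ∧ ∀ p q, φ p = φ q → c (f p) = c (f q) := by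
  classical
  let _ : Fintype P := Fintype.ofFinite P
  let _ : TopologicalSpace C := ⊥
  have : DiscreteTopology C := ⟨rfl⟩
  obtain ⟨ι, inst, hι⟩ := h C
  let Copies : Type := {f : P → EuclideanSpace ℝ ι // ∀ p q, dist (f p) (f q) = d p q}
  let U : Copies → Set (EuclideanSpace ℝ ι → C) := fun f =>
    ⋂ p : P, ⋂ q : P, {c | φ p = φ q → c (f.1 p) = c (f.1 q)}
  have hopen : ∀ f, IsOpen (U f) := by
    intro f
    refine isOpen_iInter_of_finite fun p => isOpen_iInter_of_finite fun q => ?_
    by_cases hpq : φ p = φ q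
    · have : Continuous fun c : EuclideanSpace ℝ ι → C => (c (f.1 p), c (f.1 q)) :=
        (continuous_apply _).prodMk (continuous_apply _)
      simpa [hpq] using (isOpen_discrete {z : C × C | z.1 = z.2}).preimage this
    · simp [hpq]
  have hcov : (Set.univ : Set (EuclideanSpace ℝ ι → C)) ⊆ ⋃ f, U f := by
    intro c _
    obtain ⟨f, hf, hm⟩ := hι c
    refine Set.mem_iUnion.2 ⟨⟨f, hf⟩, ?_⟩
    simp only [U, Set.mem_iInter, Set.mem_ofPred_eq]
    exact hm
  obtain ⟨t, ht⟩ := isCompact_univ.elim_finite_subcover U hopen hcov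
  refine ⟨ι, inst, t.biUnion fun f => Finset.univ.image f.1, fun c => ?_⟩
  obtain ⟨f, hft, hfU⟩ := Set.mem_iUnion₂.1 (ht (Set.mem_univ c))
  refine ⟨f.1, fun p => ?_, f.2, ?_⟩
  · exact Finset.mem_biUnion.2 ⟨f, hft, Finset.mem_image_of_mem _ (Finset.mem_univ _)⟩
  · simpa only [U, Set.mem_iInter, Set.mem_ofPred_eq] using hfU

/-- Extension by zero to the coordinates of a second index type. -/
noncomputable def padOne {ι : Type} (ι' : Type) (v : EuclideanSpace ℝ ι) :
    EuclideanSpace ℝ (ι ⊕ ι') :=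
  WithLp.toLp 2 (Sum.elim (fun i => v i) fun _ => 0)

/-- Extension by zero from the coordinates of a second index type. -/
noncomputable def padTwo (ι : Type) {ι' : Type} (v : EuclideanSpace ℝ ι') :
    EuclideanSpace ℝ (ι ⊕ ι') :=
  WithLp.toLp 2 (Sum.elim (fun _ => 0) fun i => v i)

theorem dist_padOne {ι ι' : Type} [Fintype ι] [Fintype ι'] (v w : EuclideanSpace ℝ ι) :
    dist (padOne ι' v) (padOne ι' w) = dist v w := by
  simp [EuclideanSpace.dist_eq, padOne]

theorem dist_padTwo {ι ι' : Type} [Fintype ι] [Fintype ι'] (v w : EuclideanSpace ℝ ι') :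
    dist (padTwo ι v) (padTwo ι w) = dist v w := by
  simp [EuclideanSpace.dist_eq, padTwo]

/-- The nested product argument. -/
theorem Achieved.nested (h : Achieved d φ) [Nonempty P] :
    ∀ (M : ℕ) (C : Type) [Finite C] [Nonempty C], ∃ (ι : Type) (_ : Fintype ι),
      ∀ c : (Fin M → EuclideanSpace ℝ ι) → C, ∃ f : Fin M → P → EuclideanSpace ℝ ι,
        (∀ l p q, dist (f l p) (f l q) = d p q) ∧
        ∀ u u' : Fin M → P, (∀ l, φ (u l) = φ (u' l)) →
          c (fun l => f l (u l)) = c (fun l => f l (u' l)) := by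
  classical
  suffices H : ∀ (M : ℕ) (C : Type) [Finite C] [Nonempty C], ∃ (ι : Type) (_ : Fintype ι)
      (A : Finset (EuclideanSpace ℝ ι)), ∀ c : (Fin M → EuclideanSpace ℝ ι) → C,
      ∃ f : Fin M → P → EuclideanSpace ℝ ι, (∀ l p, f l p ∈ A) ∧
        (∀ l p q, dist (f l p) (f l q) = d p q) ∧
        ∀ u u' : Fin M → P, (∀ l, φ (u l) = φ (u' l)) →
          c (fun l => f l (u l)) = c (fun l => f l (u' l)) by
    intro M C _ _
    obtain ⟨ι, inst, A, hA⟩ := H M C
    exact ⟨ι, inst, fun c => let ⟨f, _, h2, h3⟩ := hA c; ⟨f, h2, h3⟩⟩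
  intro M
  induction M with
  | zero =>
    intro C _ _
    refine ⟨Empty, inferInstance, ∅, fun c => ⟨fun l => l.elim0, fun l => l.elim0,
      fun l => l.elim0, fun u u' _ => ?_⟩⟩
    congr 1
    funext l
    exact l.elim0
  | succ M ih =>
    intro C _ _
    obtain ⟨ι1, inst1, A1, hA1⟩ := ih (P → C)
    obtain ⟨ι0, inst0, A0, hA0⟩ := h.witness ((Fin M → A1) → C)
    refine ⟨ι0 ⊕ ι1, inferInstance, A0.image (padOne ι1) ∪ A1.image (padTwo ι0), fun c => ?_⟩
    let c0 : EuclideanSpace ℝ ι0 → (Fin M → A1) → C := fun a w =>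
      c (Fin.cons (padOne ι1 a) fun l => padTwo ι0 (w l : EuclideanSpace ℝ ι1))
    obtain ⟨f0, hf0A, hf0, hf0m⟩ := hA0 c0
    let c1 : (Fin M → EuclideanSpace ℝ ι1) → P → C := fun w p =>
      if hw : ∀ l, w l ∈ A1 then c0 (f0 p) (fun l => ⟨w l, hw l⟩) else Classical.arbitrary C
    obtain ⟨f1, hf1A, hf1, hf1m⟩ := hA1 c1
    refine ⟨Fin.cons (fun p => padOne ι1 (f0 p)) (fun l p => padTwo ι0 (f1 l p)), ?_, ?_, ?_⟩
    · intro l p
      induction l using Fin.cases with
      | zero =>
        simp only [Fin.cons_zero, Finset.mem_union, Finset.mem_image]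
        exact Or.inl ⟨_, hf0A p, rfl⟩
      | succ l =>
        simp only [Fin.cons_succ, Finset.mem_union, Finset.mem_image]
        exact Or.inr ⟨_, hf1A l p, rfl⟩
    · intro l
      induction l using Fin.cases with
      | zero => simp [dist_padOne, hf0]
      | succ l => simp [dist_padTwo, hf1]
    · intro u u' hu
      have conv : ∀ v : Fin (M + 1) → P,
          c (fun l => (Fin.cons (fun p => padOne ι1 (f0 p)) (fun l p => padTwo ι0 (f1 l p)) :
              Fin (M + 1) → P → EuclideanSpace ℝ (ι0 ⊕ ι1)) l (v l))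
            = c1 (fun l => f1 l (v l.succ)) (v 0) := by
        intro v
        have hw : ∀ l, f1 l (v l.succ) ∈ A1 := fun l => hf1A l _
        simp only [c1, dif_pos hw, c0]
        congr 1
        funext l
        induction l using Fin.cases with
        | zero => simp
        | succ l => simp
      rw [conv u, conv u',
        congrFun (hf1m (fun l => u l.succ) (fun l => u' l.succ) fun l => hu l.succ) (u 0)]
      have hw : ∀ l, f1 l (u' l.succ) ∈ A1 := fun l => hf1A l _
      simp only [c1, dif_pos hw]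
      exact congrFun (hf0m (u 0) (u' 0) (hu 0)) _

omit [Finite P] in
theorem two_level_sum {M : ℕ} {l0 l1 : Fin M} (hne : l0 ≠ l1) (x y : ℝ) :
    ∑ l : Fin M, (if l = l0 then x else if l = l1 then y else 0) = x + y := by
  classical
  have : ∀ l : Fin M, (if l = l0 then x else if l = l1 then y else 0) =
      (if l = l0 then x else 0) + (if l = l1 then y else 0) := by
    intro l
    by_cases h0 : l = l0
    · simp [h0, hne]
    · simp [h0]
  simp [this, Finset.sum_add_distrib]

/-- Two classes exchanged by a symmetry can be merged. -/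
theorem Achieved.merge [DecidableEq κ] (h : Achieved d φ) (σ : P → P)
    (hσ : ∀ p q, d (σ p) (σ q) = d p q) (hσφ : ∀ p q, φ p = φ q → φ (σ p) = φ (σ q))
    (hσ2 : ∀ p, φ (σ (σ p)) = φ p) (a0 : P) :
    Achieved d (fun p => if φ p = φ (σ a0) then φ a0 else φ p) := by
  classical
  intro C _
  rcases isEmpty_or_nonempty C with hC | hC
  · obtain ⟨ι, inst, hι⟩ := h C
    exact ⟨ι, inst, fun c => (hC.false (c 0)).elim⟩
  let _ : Fintype C := Fintype.ofFinite C
  have : Nonempty P := ⟨a0⟩
  obtain ⟨ι, inst, hι⟩ := h.nested (Fintype.card C + 1) C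
  let M := Fintype.card C + 1
  let join : (Fin M → EuclideanSpace ℝ ι) → EuclideanSpace ℝ (Fin M × ι) := fun w =>
    WithLp.toLp 2 fun x => w x.1 x.2 / Real.sqrt 2
  refine ⟨Fin M × ι, inferInstance, fun c => ?_⟩
  obtain ⟨g, hg, hgm⟩ := hι fun w => c (join w)
  obtain ⟨l0, l1, hne, heq⟩ := Fintype.exists_ne_map_eq_of_card_lt
    (fun i : Fin M => c (join fun l => g l (if l = i then σ a0 else a0))) (by simp [M])
  let word : P → Fin M → P := fun p l => if l = l0 then p else if l = l1 then σ p else a0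
  refine ⟨fun p => join fun l => g l (word p l), fun p q => ?_, fun p q hpq => ?_⟩
  · have hd0 : 0 ≤ d p q := by rw [← hg l0 p q]; exact dist_nonneg
    refine (sq_eq_sq₀ dist_nonneg hd0).1 ?_
    rw [EuclideanSpace.dist_eq, Real.sq_sqrt (Finset.sum_nonneg fun i _ => sq_nonneg _),
      Fintype.sum_prod_type]
    have hl : ∀ l, ∑ i, dist ((join fun l => g l (word p l)) (l, i))
        ((join fun l => g l (word q l)) (l, i)) ^ 2 =
        if l = l0 then d p q ^ 2 / 2 else if l = l1 then d p q ^ 2 / 2 else 0 := by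
      intro l
      have : ∀ x y : EuclideanSpace ℝ ι,
          ∑ i, dist (x i / Real.sqrt 2) (y i / Real.sqrt 2) ^ 2 = dist x y ^ 2 / 2 := by
        intro x y
        rw [EuclideanSpace.dist_eq, Real.sq_sqrt (Finset.sum_nonneg fun i _ => sq_nonneg _),
          Finset.sum_div]
        refine Finset.sum_congr rfl fun i _ => ?_
        rw [Real.dist_eq, Real.dist_eq, sq_abs, sq_abs, ← sub_div, div_pow,
          Real.sq_sqrt two_pos.le]
      simp only [join, this, hg, word]
      split_ifs
      · rfl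
      · rw [hσ]
      · rw [← hg l a0 a0, dist_self]; simp
    rw [Finset.sum_congr rfl fun l _ => hl l, two_level_sum hne]
    ring
  · have hA : ∀ p, φ p = φ a0 → c (join fun l => g l (word p l))
        = c (join fun l => g l (if l = l1 then σ a0 else a0)) := by
      intro p hp
      refine hgm (word p) (fun l => if l = l1 then σ a0 else a0) fun l => ?_
      simp only [word]
      by_cases h0 : l = l0
      · simp [h0, hne, hp]
      · by_cases h1 : l = l1
        · simp [h1, hne.symm, hσφ _ _ hp]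
        · simp [h0, h1]
    have hB : ∀ p, φ p = φ (σ a0) → c (join fun l => g l (word p l))
        = c (join fun l => g l (if l = l0 then σ a0 else a0)) := by
      intro p hp
      refine hgm (word p) (fun l => if l = l0 then σ a0 else a0) fun l => ?_
      simp only [word]
      by_cases h0 : l = l0
      · simp [h0, hp]
      · by_cases h1 : l = l1
        · simp [h1, hne.symm, hσφ _ _ hp, hσ2]
        · simp [h0, h1]
    have hsame : ∀ p q, φ p = φ q →
        c (join fun l => g l (word p l)) = c (join fun l => g l (word q l)) := by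
      intro p q hp
      refine hgm _ _ fun l => ?_
      simp only [word]
      split_ifs
      · exact hp
      · exact hσφ _ _ hp
      · rfl
    simp only at hpq heq
    split_ifs at hpq with hp hq hq
    · rw [hB p hp, hB q hq]
    · rw [hB p hp, hA q hpq.symm, heq]
    · rw [hA p hpq, hB q hq, heq]
    · exact hsame p q hpq

/-- All pairs of classes exchanged by one symmetry can be merged. -/
theorem Achieved.join (h : Achieved d φ) (σ : P → P)
    (hσ : ∀ p q, d (σ p) (σ q) = d p q) (hσφ : ∀ p q, φ p = φ q → φ (σ p) = φ (σ q))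
    (hσ2 : ∀ p, φ (σ (σ p)) = φ p) :
    ∃ ψ : P → κ, Achieved d ψ ∧ (∀ p, ψ (σ p) = ψ p) ∧ ∀ p q, φ p = φ q → ψ p = ψ q := by
  classical
  let _ : Fintype P := Fintype.ofFinite P
  suffices H : ∀ (k : ℕ) (φ : P → κ), (univ.filter fun p => φ (σ p) ≠ φ p).card ≤ k →
      Achieved d φ → (∀ p q, φ p = φ q → φ (σ p) = φ (σ q)) → (∀ p, φ (σ (σ p)) = φ p) →
      ∃ ψ : P → κ, Achieved d ψ ∧ (∀ p, ψ (σ p) = ψ p) ∧ ∀ p q, φ p = φ q → ψ p = ψ q from
    H _ φ le_rfl h hσφ hσ2
  intro k
  induction k with
  | zero =>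
    intro φ hk hach _ _
    refine ⟨φ, hach, fun p => ?_, fun _ _ h => h⟩
    by_contra hp
    have : p ∈ univ.filter fun p => φ (σ p) ≠ φ p := by simp [hp]
    simp [Finset.card_eq_zero.1 (Nat.le_zero.1 hk)] at this
  | succ k ih =>
    intro φ hk hach hc hs
    by_cases hfix : ∀ p, φ (σ p) = φ p
    · exact ⟨φ, hach, hfix, fun _ _ h => h⟩
    push Not at hfix
    obtain ⟨a0, ha0⟩ := hfix
    set φ' : P → κ := fun p => if φ p = φ (σ a0) then φ a0 else φ p with hφ'
    have hle : ∀ p q, φ p = φ q → φ' p = φ' q := fun p q hpq => by simp [hφ', hpq]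
    have hB : ∀ p, φ p = φ (σ a0) → φ' (σ p) = φ a0 := by
      intro p hp
      have h1 : φ (σ p) = φ a0 := (hc _ _ hp).trans (hs a0)
      simp only [hφ', h1]
      split_ifs <;> rfl
    have hA : ∀ p, φ p = φ a0 → φ' (σ p) = φ a0 := by
      intro p hp
      simp [hφ', hc _ _ hp]
    have hc' : ∀ p q, φ' p = φ' q → φ' (σ p) = φ' (σ q) := by
      intro p q hpq
      simp only [hφ'] at hpq
      split_ifs at hpq with hp hq hq
      · rw [hB p hp, hB q hq]
      · rw [hB p hp, hA q hpq.symm]
      · rw [hA p hpq, hB q hq]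
      · exact hle _ _ (hc p q hpq)
    have hsub : (univ.filter fun p => φ' (σ p) ≠ φ' p) ⊂ univ.filter fun p => φ (σ p) ≠ φ p := by
      refine (Finset.ssubset_iff_of_subset fun p hp => ?_).2 ⟨a0, by simp [ha0], ?_⟩
      · simp only [Finset.mem_filter, Finset.mem_univ, true_and] at hp ⊢
        exact fun h1 => hp (hle _ _ h1)
      · simp [hφ', ha0.symm]
    have := Finset.card_lt_card hsub
    obtain ⟨ψ, h1, h2, h3⟩ := ih φ' (by omega) (hach.merge σ hσ hc hs a0) hc'
      fun p => hle _ _ (hs p)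
    exact ⟨ψ, h1, h2, fun p q hpq => h3 p q (hle p q hpq)⟩

end Vale.Agent.P058.Kite
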