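import Vale.Agent.P058.Kite.Scales

/-!
The kite with vertices (1,0), (-1,0), (a,h), (a,-h), h = sqrt(1-a^2), at all scales 1/(d+1) inside the types of a
product of planes: a boosted circle is an ellipse whose focal radii are affine.
-/

open Finset Complex

namespace Vale.Agent.P058.Kite

/-- First coordinates of the vertices. -/
def vx (a : ℝ) : Fin 4 → ℝ := ![1, -1, a, a]

/-- Second coordinates of the vertices. -/
noncomputable def vy (a : ℝ) : Fin 4 → ℝ :=
  ![0, 0, Real.sqrt (1 - a ^ 2), -Real.sqrt (1 - a ^ 2)]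

/-- The distance between two vertices. -/
noncomputable def vdist (a : ℝ) (i j : Fin 4) : ℝ :=
  Real.sqrt ((vx a i - vx a j) ^ 2 + (vy a i - vy a j) ^ 2)

theorem vdist_sq (a : ℝ) (i j : Fin 4) :
    vdist a i j ^ 2 = (vx a i - vx a j) ^ 2 + (vy a i - vy a j) ^ 2 :=
  Real.sq_sqrt (by positivity)

/-- Dyadic directions near the vertices, seen from a point near the centre. -/
theorem exists_boost (a : ℝ) (ha : |a| < 1) (ε : ℝ) (hε : 0 < ε) :
    ∃ (m : ℕ) (b : ℝ) (κ : Fin 4 → ℤ), |b| ≤ ε ∧ |b| < 1 ∧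
      ∀ i, ((1 + b * vx a i : ℝ) : ℂ) * ((ZMod.toCircle ((κ i : ℤ) : ZMod (2 ^ (m + 1))) : Circle) : ℂ)
        = ((vx a i + b : ℝ) : ℂ) + ((Real.sqrt (1 - b ^ 2) * vy a i : ℝ) : ℂ) * I := by
  obtain ⟨ha1, ha2⟩ := abs_lt.1 ha
  have hgap : 0 < 1 - |a| := by linarith
  set θ0 := Real.arccos a with hθ0
  have hθ0pos : 0 < θ0 := Real.arccos_pos.2 ha2
  have hθ0pi : θ0 < Real.pi := Real.arccos_lt_pi.2 ha1
  set η : ℝ := min (ε * (1 - |a|)) ((1 - |a|) / 2) with hη
  have hη0 : 0 < η := lt_min (by positivity) (by linarith)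
  obtain ⟨m, hm⟩ := pow_unbounded_of_one_lt (2 * Real.pi / η) one_lt_two
  set n : ℝ := (2 : ℝ) ^ (m + 1) with hn
  have hn0 : 0 < n := by positivity
  have hπ := Real.pi_pos
  set k : ℕ := ⌊θ0 * n / (2 * Real.pi)⌋₊ with hk
  set θ : ℝ := 2 * Real.pi * k / n with hθ
  have hk1 : (k : ℝ) ≤ θ0 * n / (2 * Real.pi) := Nat.floor_le (by positivity)
  have hk2 : θ0 * n / (2 * Real.pi) < k + 1 := Nat.lt_floor_add_one _
  have hθle : θ ≤ θ0 := by
    rw [hθ, div_le_iff₀ hn0]
    rw [le_div_iff₀ (by positivity)] at hk1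
    linarith
  have hθge : θ0 - θ ≤ η := by
    have h1 : θ0 < 2 * Real.pi * (k + 1) / n := by
      rw [lt_div_iff₀ hn0]
      rw [div_lt_iff₀ (by positivity)] at hk2
      linarith
    have h2 : 2 * Real.pi / n ≤ η := by
      rw [div_le_iff₀ hn0]
      have h3 : 2 * Real.pi / η < n := by
        rw [hn, pow_succ]; linarith [pow_pos two_pos m (M₀ := ℝ)]
      rw [div_lt_iff₀ hη0] at h3
      linarith
    have : 2 * Real.pi * (k + 1) / n = θ + 2 * Real.pi / n := by rw [hθ]; ring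
    linarith
  have hθ0' : 0 ≤ θ := by positivity
  set c : ℝ := Real.cos θ with hc
  have hca : |c - a| ≤ η := by
    have h1 := Real.abs_cos_sub_cos_le θ θ0
    rw [hθ0, Real.cos_arccos ha1.le ha2.le] at h1
    refine h1.trans ?_
    rw [abs_sub_comm, abs_of_nonneg (by linarith)]
    exact hθge
  have hc1 : |c| ≤ 1 := Real.abs_cos_le_one θ
  have hac : 1 - |a| ≤ 1 - a * c := by
    have h1 : a * c ≤ |a| * |c| := by rw [← abs_mul]; exact le_abs_self _
    nlinarith [abs_nonneg a]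
  set b : ℝ := (c - a) / (1 - a * c) with hb
  have hden : 0 < 1 - a * c := by linarith
  have hbsmall : |b| ≤ η / (1 - |a|) := by
    rw [hb, abs_div, abs_of_pos hden]; gcongr
  have hbε : |b| ≤ ε := by
    refine hbsmall.trans ?_
    rw [div_le_iff₀ hgap]; exact min_le_left _ _
  have hb1 : |b| < 1 := by
    refine hbsmall.trans_lt ?_
    rw [div_lt_one hgap]
    linarith [min_le_right (ε * (1 - |a|)) ((1 - |a|) / 2)]
  refine ⟨m, b, ![0, (2 ^ m : ℕ), k, -(k : ℤ)], hbε, hb1, fun i => ?_⟩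
  have hsq : 0 ≤ 1 - b ^ 2 := by nlinarith [abs_nonneg b, sq_abs b]
  have hh : 0 ≤ 1 - a ^ 2 := by nlinarith
  have hbd : b * (1 - a * c) = c - a := by rw [hb]; exact div_mul_cancel₀ _ hden.ne'
  have e1 : (1 + b * a) * c = a + b := by linear_combination -hbd
  have hba : 0 ≤ 1 + b * a := by
    have : |b * a| ≤ 1 := by rw [abs_mul]; nlinarith [abs_nonneg b, abs_nonneg a]
    linarith [(abs_le.1 this).1]
  have e2 : (1 + b * a) * Real.sin θ = Real.sqrt (1 - b ^ 2) * Real.sqrt (1 - a ^ 2) := by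
    have hs : 0 ≤ Real.sin θ :=
      Real.sin_nonneg_of_nonneg_of_le_pi hθ0' (by linarith)
    refine (sq_eq_sq₀ (mul_nonneg hba hs) (by positivity)).1 ?_
    rw [mul_pow, mul_pow, Real.sq_sqrt hsq, Real.sq_sqrt hh, Real.sin_sq, ← hc]
    linear_combination (-((1 + b * a) * c) - (a + b)) * e1
  have hexp : ∀ j : ℤ, ((ZMod.toCircle ((j : ℤ) : ZMod (2 ^ (m + 1))) : Circle) : ℂ)
      = Complex.exp (((2 * Real.pi * j / n : ℝ) : ℂ) * I) := by
    intro j
    rw [ZMod.toCircle_intCast]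
    congr 1
    simp [hn]
    ring
  rw [hexp]
  fin_cases i
  · simp [vx, vy]
  · have : (2 * Real.pi * ((2 ^ m : ℕ) : ℤ) / n : ℝ) = Real.pi := by
      rw [hn, pow_succ]; push_cast; field_simp
    simp only [Fin.mk_one, Matrix.cons_val_one, Matrix.cons_val_zero]
    rw [this, Complex.exp_pi_mul_I]
    simp [vx, vy]
    ring
  · simp only [Fin.reduceFinMk, Matrix.cons_val, vx, vy, Int.cast_natCast]
    rw [← hθ, Complex.exp_ofReal_mul_I, ← hc, ← e1, ← e2]
    push_cast; ring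
  · simp only [Fin.reduceFinMk, Matrix.cons_val, vx, vy, Int.cast_neg, Int.cast_natCast]
    rw [show 2 * Real.pi * -(k : ℝ) / n = -θ by rw [hθ]; ring, Complex.exp_ofReal_mul_I,
      Real.cos_neg, Real.sin_neg, ← hc, mul_neg, ← e1,
      ← e2]
    push_cast; ring

/-- Squared distance of two complex numbers as coordinates. -/
theorem normSq_sub_eq (z w : ℂ) : Complex.normSq (z - w) = (z.re - w.re) ^ 2 + (z.im - w.im) ^ 2 := by
  rw [Complex.normSq_apply, Complex.sub_re, Complex.sub_im]; ring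

/-- The types: the kite at every scale 1/(d+1) inside one orbit of each vertex. -/
theorem kite_scales (a : ℝ) (ha : |a| < 1) (N : ℕ) :
    ∃ (G : Type) (_ : AddCommGroup G) (_ : Finite G) (ι : Type) (_ : Fintype ι)
      (v : Fin 4 × G → EuclideanSpace ℝ ι) (W : Fin N → Fin 4 → G),
      (∀ g : G, ∃ j : ℕ, 2 ^ j • g = 0) ∧
      (∀ (t : G) (p q : Fin 4 × G),
        dist (v (p.1, p.2 + t)) (v (q.1, q.2 + t)) = dist (v p) (v q)) ∧
      ∀ (d : Fin N) (i i' : Fin 4),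
        dist (v (i, W d i)) (v (i', W d i')) ^ 2 = vdist a i i' ^ 2 / ((d : ℕ) + 1) := by
  classical
  set δ : ℝ := 1 / (2 * (N + 1)) with hδ
  have hδ0 : 0 < δ := by positivity
  obtain ⟨m, b, κ, hb, hb1, hboost⟩ := exists_boost a ha (δ / 2) (by positivity)
  set n : ℕ := 2 ^ (m + 1) with hn
  have : NeZero n := ⟨by positivity⟩
  have hsq : 0 < 1 - b ^ 2 := by nlinarith [abs_nonneg b, sq_abs b]
  set wt : Fin N → ℝ := fun e => (1 / ((e : ℕ) + 1) - δ) / (1 - b ^ 2) with hwt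
  have hδe : ∀ e : Fin N, δ ≤ 1 / (((e : ℕ) : ℝ) + 1) := fun e => by
    have : ((e : ℕ) : ℝ) + 1 ≤ N := by exact_mod_cast e.2
    rw [hδ]; gcongr; linarith [(Nat.cast_nonneg N : (0:ℝ) ≤ N)]
  have hwt0 : ∀ e, 0 ≤ wt e := fun e => div_nonneg (sub_nonneg.2 (hδe e)) hsq.le
  set u2 : ℝ := δ - b ^ 2 * ∑ e, wt e with hu2
  have hu20 : 0 ≤ u2 := by
    have hδN : δ * N ≤ 1 / 2 := by
      rw [hδ, div_mul_eq_mul_div, div_le_iff₀ (by positivity)]; linarith
    have hδ1 : δ ≤ 1 / 2 := by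
      rw [hδ]; gcongr; linarith [(Nat.cast_nonneg N : (0:ℝ) ≤ N)]
    have hb2 : b ^ 2 ≤ (δ / 2) ^ 2 := by rw [← sq_abs]; gcongr
    have hw2 : ∀ e, wt e ≤ 2 := fun e => by
      rw [hwt]
      have h1 : 1 / (((e : ℕ) : ℝ) + 1) ≤ 1 := by
        rw [div_le_one (by positivity)]; linarith [(Nat.cast_nonneg (e : ℕ) : (0:ℝ) ≤ _)]
      rw [div_le_iff₀ hsq]; nlinarith
    have hsum : ∑ e, wt e ≤ 2 * N := by
      calc ∑ e, wt e ≤ ∑ _e : Fin N, (2:ℝ) := Finset.sum_le_sum fun e _ => hw2 e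
        _ = 2 * N := by simp [mul_comm]
    have hs0 : 0 ≤ ∑ e, wt e := Finset.sum_nonneg fun e _ => hwt0 e
    rw [hu2, sub_nonneg]
    calc b ^ 2 * ∑ e, wt e ≤ (δ / 2) ^ 2 * (2 * N) := mul_le_mul hb2 hsum hs0 (by positivity)
      _ = δ * (δ * N) / 2 := by ring
      _ ≤ δ := by nlinarith
  let pl : Fin 4 → (Fin N → ZMod n) → Fin N → ℂ := fun i g e =>
    ((Real.sqrt (wt e) * (1 + b * vx a i) : ℝ) : ℂ) * (ZMod.toCircle (g e) : ℂ)
  let v : Fin 4 × (Fin N → ZMod n) → EuclideanSpace ℝ ((Fin N × Fin 2) ⊕ Fin 2) := fun p =>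
    WithLp.toLp 2 (Sum.elim (fun x => ![(pl p.1 p.2 x.1).re, (pl p.1 p.2 x.1).im] x.2)
      ![Real.sqrt u2 * vx a p.1, Real.sqrt δ * vy a p.1])
  have hv : ∀ p q, dist (v p) (v q) ^ 2 = (∑ e, Complex.normSq (pl p.1 p.2 e - pl q.1 q.2 e))
      + u2 * (vx a p.1 - vx a q.1) ^ 2 + δ * (vy a p.1 - vy a q.1) ^ 2 := by
    intro p q
    rw [EuclideanSpace.dist_eq, Real.sq_sqrt (Finset.sum_nonneg fun i _ => sq_nonneg _),
      Fintype.sum_sum_type, Fintype.sum_prod_type]
    simp only [v, Sum.elim_inl, Sum.elim_inr, Fin.sum_univ_two, Matrix.cons_val_zero,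
      Matrix.cons_val_one, Real.dist_eq, sq_abs, normSq_sub_eq]
    rw [← mul_sub, ← mul_sub, mul_pow, mul_pow, Real.sq_sqrt hu20, Real.sq_sqrt hδ0.le]
    ring
  refine ⟨Fin N → ZMod n, inferInstance, inferInstance, _, inferInstance, v,
    fun d i e => if e = d then ((κ i : ℤ) : ZMod n) else 0, fun g => ⟨m + 1, ?_⟩, fun t p q => ?_,
    fun d i i' => ?_⟩
  · ext e
    rw [Pi.smul_apply, Pi.zero_apply, nsmul_eq_mul]
    have h : ((2 ^ (m + 1) : ℕ) : ZMod n) = 0 := ZMod.natCast_self n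
    rw [h, zero_mul]
  · refine (sq_eq_sq₀ dist_nonneg dist_nonneg).1 ?_
    rw [hv, hv]
    congr 2
    refine Finset.sum_congr rfl fun e _ => ?_
    simp only [pl, Pi.add_apply, AddChar.map_add_eq_mul, Circle.coe_mul]
    rw [← mul_assoc, ← mul_assoc, ← sub_mul, Complex.normSq_mul, Circle.normSq_coe, mul_one]
  · rw [hv, vdist_sq]
    have he : ∀ e, Complex.normSq
        (pl i (fun e => if e = d then ((κ i : ℤ) : ZMod n) else 0) e
          - pl i' (fun e => if e = d then ((κ i' : ℤ) : ZMod n) else 0) e)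
        = wt e * (b ^ 2 * (vx a i - vx a i') ^ 2) + (if e = d then wt e * (1 - b ^ 2) *
            ((vx a i - vx a i') ^ 2 + (vy a i - vy a i') ^ 2) else 0) := by
      intro e
      simp only [pl]
      by_cases h : e = d
      · rw [if_pos h, if_pos h, if_pos h, Complex.ofReal_mul, Complex.ofReal_mul, mul_assoc,
          mul_assoc, hboost, hboost, normSq_sub_eq]
        simp only [Complex.add_re, Complex.add_im,
          Complex.ofReal_re, Complex.ofReal_im, Complex.mul_re, Complex.mul_im, Complex.I_re,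
          Complex.I_im]
        have e1 : Real.sqrt (wt e) ^ 2 = wt e := Real.sq_sqrt (hwt0 e)
        have e2 : Real.sqrt (1 - b ^ 2) ^ 2 = 1 - b ^ 2 := Real.sq_sqrt hsq.le
        linear_combination ((vx a i - vx a i') ^ 2
          + Real.sqrt (1 - b ^ 2) ^ 2 * (vy a i - vy a i') ^ 2) * e1
          + wt e * (vy a i - vy a i') ^ 2 * e2
      · rw [if_neg h, if_neg h, if_neg h, AddChar.map_zero_eq_one, Circle.coe_one, mul_one,
          mul_one, ← Complex.ofReal_sub, Complex.normSq_ofReal]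
        linear_combination (b ^ 2 * (vx a i - vx a i') ^ 2) * Real.sq_sqrt (hwt0 e)
    rw [Finset.sum_congr rfl fun e _ => he e, Finset.sum_add_distrib, ← Finset.sum_mul,
      Finset.sum_ite_eq' univ d, if_pos (mem_univ _)]
    have hwd : wt d * (1 - b ^ 2) = 1 / (((d : ℕ) : ℝ) + 1) - δ := by
      rw [hwt]; field_simp
    rw [hwd, hu2]
    ring

/-- Every kite of this shape has monochromatic congruent copies in every finite colouring. -/
theorem kite_mono_copy (a : ℝ) (ha : |a| < 1) (C : Type) [Finite C] :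
    ∃ (ι : Type) (_ : Fintype ι), ∀ c : EuclideanSpace ℝ ι → C,
      ∃ f : Fin 4 → EuclideanSpace ℝ ι,
        (∀ i i', dist (f i) (f i') = vdist a i i') ∧ ∀ i i', c (f i) = c (f i') :=
  mono_copy_of_scales (vdist a) (fun _ _ => Real.sqrt_nonneg _) (kite_scales a ha) C

end Vale.Agent.P058.Kite
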