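import Mathlib

/-!
No four rearrangements of one real vector form a kite with transcendental parameter: the linear relation of the
kite persists, by a change of field, at a parameter larger than one, where the parallelogram law forbids it.
-/

open Polynomial

namespace Vale.Agent.P058.Kite

/-- The parallelogram law for four rearrangements of one vector with the relation of a kite. -/
theorem kite_identity {J : Type} [Fintype J] (u : J → ℝ) (σ : Fin 4 → Equiv.Perm J) (t : ℝ)
    (h : ∀ j, u (σ 2 j) + u (σ 3 j) = (1 + t) * u (σ 0 j) + (1 - t) * u (σ 1 j)) :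
    ∑ j, (u (σ 2 j) - u (σ 3 j)) ^ 2 = (1 - t ^ 2) * ∑ j, (u (σ 0 j) - u (σ 1 j)) ^ 2 := by
  have hS : ∀ i, ∑ j, u (σ i j) ^ 2 = ∑ j, u j ^ 2 := fun i =>
    Equiv.sum_comp (σ i) (fun j => u j ^ 2)
  have h1 : ∀ j, (u (σ 2 j) - u (σ 3 j)) ^ 2 - (1 - t ^ 2) * (u (σ 0 j) - u (σ 1 j)) ^ 2
      = 2 * u (σ 2 j) ^ 2 + 2 * u (σ 3 j) ^ 2 - 2 * (1 + t) * u (σ 0 j) ^ 2
        - 2 * (1 - t) * u (σ 1 j) ^ 2 := by
    intro j
    have := h j
    linear_combination (-(u (σ 2 j) + u (σ 3 j)) - ((1 + t) * u (σ 0 j) + (1 - t) * u (σ 1 j))) * this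
  rw [← sub_eq_zero, Finset.mul_sum, ← Finset.sum_sub_distrib, Finset.sum_congr rfl fun j _ => h1 j]
  simp only [Finset.sum_sub_distrib, Finset.sum_add_distrib, ← Finset.mul_sum, hS]
  ring

/-- Four rearrangements of one vector with the relation of a kite with transcendental parameter
have equal first and second member. -/
theorem no_kite {J : Type} [Fintype J] (a : ℝ) (ha : Transcendental ℚ a) (w : J → ℝ)
    (σ : Fin 4 → Equiv.Perm J)
    (h : ∀ j, w (σ 2 j) + w (σ 3 j) = (1 + a) * w (σ 0 j) + (1 - a) * w (σ 1 j)) :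
    ∀ j, w (σ 0 j) = w (σ 1 j) := by
  classical
  intro j0
  by_contra hne
  set F : IntermediateField ℚ ℝ := IntermediateField.adjoin ℚ {a} with hF
  have haF : a ∈ F := IntermediateField.mem_adjoin_simple_self ℚ a
  set a' : F := ⟨a, haF⟩ with ha'
  obtain ⟨φ, hφ⟩ := Module.Projective.exists_dual_ne_zero F (sub_ne_zero.2 hne)
  have hsm : ∀ (c : F) (x : ℝ), φ ((c : ℝ) * x) = c * φ x := fun c x => by
    rw [show (c : ℝ) * x = c • x from rfl, map_smul, smul_eq_mul]
  set u : J → F := fun j => φ (w j) with hu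
  have hu0 : (u (σ 0 j0) : ℝ) - u (σ 1 j0) ≠ 0 := by
    intro h0
    apply hφ
    rw [map_sub]
    exact Subtype.ext (by simpa [hu] using h0)
  have hrel : ∀ j, (u (σ 2 j) : ℝ) + u (σ 3 j)
      = (1 + a) * u (σ 0 j) + (1 - a) * u (σ 1 j) := by
    intro j
    have h1 := congrArg φ (h j)
    rw [map_add, map_add, show (1 : ℝ) + a = ((1 + a' : F) : ℝ) by simp [ha'],
      show (1 : ℝ) - a = ((1 - a' : F) : ℝ) by simp [ha'], hsm, hsm] at h1
    have h2 := congrArg (Subtype.val : F → ℝ) h1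
    simpa [hu, ha'] using h2
  have hfrac : ∀ j, ∃ p q : ℚ[X], aeval a q ≠ 0 ∧ (u j : ℝ) * aeval a q = aeval a p := by
    intro j
    obtain ⟨r, s, hrs⟩ := (IntermediateField.mem_adjoin_simple_iff ℚ (u j : ℝ)).1 (u j).2
    by_cases hs : aeval a s = 0
    · refine ⟨0, 1, by simp, ?_⟩
      simp [hrs, hs]
    · exact ⟨r, s, hs, by rw [hrs, div_mul_cancel₀ _ hs]⟩
  choose p q hq hpq using hfrac
  set R : J → ℚ[X] := fun j => p j * ∏ k ∈ Finset.univ.erase j, q k with hR
  set c : ℝ := ∏ k, aeval a (q k) with hc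
  have hc0 : c ≠ 0 := Finset.prod_ne_zero_iff.2 fun k _ => hq k
  have hev : ∀ j, aeval a (R j) = c * u j := by
    intro j
    rw [hR, map_mul, map_prod, ← hpq j, hc,
      ← Finset.mul_prod_erase Finset.univ (fun k => aeval a (q k)) (Finset.mem_univ j)]
    ring
  have hzero := transcendental_iff.1 ha
  have hpoly : ∀ j, R (σ 2 j) + R (σ 3 j) - (1 + X) * R (σ 0 j) - (1 - X) * R (σ 1 j) = 0 := by
    intro j
    apply hzero
    simp only [map_sub, map_add, map_mul, map_one, aeval_X, hev]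
    linear_combination c * hrel j
  set D : ℚ[X] := R (σ 0 j0) - R (σ 1 j0) with hD
  have hD0 : D ≠ 0 := by
    intro h0
    have h1 := congrArg (aeval a) h0
    rw [hD, map_sub, hev, hev, map_zero, ← mul_sub] at h1
    exact mul_ne_zero hc0 hu0 h1
  obtain ⟨t, ht1, ht2⟩ : ∃ t : ℝ, 1 < t ∧ aeval t D ≠ 0 := by
    obtain ⟨t, ht⟩ := ((Set.Ioi_infinite (1 : ℝ)).sdiff (finite_setOfPred_isRoot
      ((Polynomial.map_ne_zero_iff (algebraMap ℚ ℝ).injective).2 hD0))).nonempty
    refine ⟨t, ht.1, fun h0 => ht.2 ?_⟩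
    show Polynomial.IsRoot _ t
    rw [IsRoot, eval_map_algebraMap]
    exact h0
  have hid := kite_identity (fun j => aeval t (R j)) σ t fun j => by
    have h1 := congrArg (aeval t) (hpoly j)
    simp only [map_sub, map_add, map_mul, map_one, aeval_X, map_zero] at h1
    linarith
  have hpos : 0 < ∑ j, (aeval t (R (σ 0 j)) - aeval t (R (σ 1 j))) ^ 2 := by
    refine Finset.sum_pos' (fun j _ => sq_nonneg _) ⟨j0, Finset.mem_univ _, ?_⟩
    rw [hD, map_sub] at ht2
    positivity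
  have hneg : 1 - t ^ 2 < 0 := by nlinarith
  have hnn : 0 ≤ ∑ j, (aeval t (R (σ 2 j)) - aeval t (R (σ 3 j))) ^ 2 :=
    Finset.sum_nonneg fun j _ => sq_nonneg _
  nlinarith

end Vale.Agent.P058.Kite
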