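import Vale.Agent.P058.Kite.Ellipse
import Vale.Agent.P058.Kite.Sign
import Vale.Agent.P058.Defs

/-!
Kites are Ramsey, and those with transcendental parameter are not subtransitive.
-/

open Finset

namespace Vale.Agent.P058.Kite

/-- The vertices. -/
noncomputable def vertex (a : ℝ) (i : Fin 4) : Euc 2 := WithLp.toLp 2 ![vx a i, vy a i]

/-- The kite as a finite set. -/
noncomputable def kite (a : ℝ) : Finset (Euc 2) := by
  classical exact Finset.univ.image (vertex a)

theorem vertex_mem (a : ℝ) (i : Fin 4) : vertex a i ∈ kite a := by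
  classical
  simp [kite]

theorem exists_index (a : ℝ) (x : kite a) : ∃ i, vertex a i = (x : Euc 2) := by
  classical
  have := x.2
  simpa [kite] using this

theorem dist_vertex (a : ℝ) (i j : Fin 4) : dist (vertex a i) (vertex a j) = vdist a i j := by
  simp [vertex, vdist, EuclideanSpace.dist_eq, Real.dist_eq, sq_abs]

theorem kite_ramsey (a : ℝ) (ha : |a| < 1) : IsRamsey (kite a) := by
  classical
  refine ⟨⟨vertex a 0, vertex_mem a 0⟩, fun r _ => ?_⟩
  obtain ⟨ι, inst, hι⟩ := kite_mono_copy a ha (Fin r)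
  let e := Fintype.equivFin (ι ⊕ Fin 1)
  let L := LinearIsometryEquiv.piLpCongrLeft 2 ℝ ℝ e
  refine ⟨Fintype.card (ι ⊕ Fin 1), by simp, fun c => ?_⟩
  obtain ⟨f, hf, hm⟩ := hι fun v => c (L (padOne (Fin 1) v))
  refine ⟨fun x => L (padOne (Fin 1) (f (exists_index a x).choose)), fun x y => ?_,
    fun x y => hm _ _⟩
  rw [L.dist_map, dist_padOne, hf, ← dist_vertex, (exists_index a x).choose_spec,
    (exists_index a y).choose_spec]

/-- Four points with the distances of the kite satisfy its linear relation. -/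
theorem kite_relation {n : ℕ} {a : ℝ} (ha : |a| < 1) (p : Fin 4 → Euc n)
    (hp : ∀ i j, dist (p i) (p j) = vdist a i j) :
    p 2 + p 3 = (1 + a) • p 0 + (1 - a) • p 1 := by
  have hh : Real.sqrt (1 - a ^ 2) ^ 2 = 1 - a ^ 2 := by
    refine Real.sq_sqrt ?_
    nlinarith [(abs_lt.1 ha).1, (abs_lt.1 ha).2]
  set A := p 1 - p 0 with hA
  set B := p 2 - p 0 with hB
  set C := p 3 - p 0 with hC
  have hd : ∀ i j, ‖p i - p j‖ ^ 2 = vdist a i j ^ 2 := fun i j => by
    rw [← dist_eq_norm, hp]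
  have h10 : ‖A‖ ^ 2 = 4 := by
    rw [hA, hd, vdist_sq]; simp [vx, vy]; norm_num
  have h20 : ‖B‖ ^ 2 = 2 - 2 * a := by
    rw [hB, hd, vdist_sq]; simp [vx, vy]; linear_combination hh
  have h30 : ‖C‖ ^ 2 = 2 - 2 * a := by
    rw [hC, hd, vdist_sq]; simp [vx, vy]; linear_combination hh
  have hAB : ‖A - B‖ ^ 2 = 2 + 2 * a := by
    rw [hA, hB, sub_sub_sub_cancel_right, hd, vdist_sq]; simp [vx, vy]; linear_combination hh
  have hAC : ‖A - C‖ ^ 2 = 2 + 2 * a := by
    rw [hA, hC, sub_sub_sub_cancel_right, hd, vdist_sq]; simp [vx, vy]; linear_combination hh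
  have hBC : ‖B - C‖ ^ 2 = 4 * (1 - a ^ 2) := by
    rw [hB, hC, sub_sub_sub_cancel_right, hd, vdist_sq]; simp [vx, vy]; linear_combination 4 * hh
  rw [norm_sub_sq_real] at hAB hAC hBC
  have hu : ‖(1 - a) • A - B - C‖ ^ 2 = 0 := by
    rw [norm_sub_sq_real, norm_sub_sq_real, norm_smul, inner_sub_left, real_inner_smul_left,
      real_inner_smul_left, mul_pow, Real.norm_eq_abs, sq_abs]
    linear_combination ((1 - a) ^ 2 - (1 - a) - (1 - a)) * h10
      + (1 - (1 - a) + 1) * h20 + (1 - (1 - a) + 1) * h30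
      + (1 - a) * hAB + (1 - a) * hAC - hBC
  rw [sq_eq_zero_iff, norm_eq_zero] at hu
  have : (1 + a) • p 0 + (1 - a) • p 1 - (p 2 + p 3) = (1 - a) • A - B - C := by
    rw [hA, hB, hC]; module
  rw [hu, sub_eq_zero] at this
  exact this.symm

theorem kite_not_subtransitive (a : ℝ) (ha : |a| < 1) (htr : Transcendental ℚ a) {n : ℕ}
    (X : Finset (Euc n)) (hX : IsTransitiveSet X) :
    ¬∃ f : kite a → Euc n, (∀ x, f x ∈ X) ∧
      ∀ x y : kite a, dist (f x) (f y) = dist (x : Euc 2) y := by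
  classical
  rintro ⟨f, hfX, hf⟩
  let y : Fin 4 → X := fun i => ⟨f ⟨vertex a i, vertex_mem a i⟩, hfX _⟩
  have hy : ∀ i j, dist (y i : Euc n) (y j) = vdist a i j := fun i j => by
    simp only [y]; rw [hf, dist_vertex]
  let G : Subgroup (Equiv.Perm X) :=
    { carrier := {g | ∀ u v : X, dist ((g u : X) : Euc n) (g v : X) = dist (u : Euc n) v}
      mul_mem' := fun {g g'} hg hg' u v => by
        rw [Equiv.Perm.mul_apply, Equiv.Perm.mul_apply, hg, hg']
      one_mem' := fun u v => rfl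
      inv_mem' := fun {g} hg u v => by
        have := hg (g⁻¹ u) (g⁻¹ v)
        simpa using this.symm }
  have htrans : ∀ i, ∃ g ∈ G, g (y 0) = y i := by
    intro i
    obtain ⟨φ, hφ, hxy⟩ := hX _ (y 0).2 _ (y i).2
    have hmem : ∀ z, z ∈ X ↔ φ z ∈ X := fun z => by
      have := congrArg (fun S : Set (Euc n) => φ z ∈ S) hφ
      simp only [φ.injective.mem_set_image, Finset.mem_coe] at this
      exact Iff.of_eq this
    exact ⟨φ.toEquiv.subtypeEquiv hmem, fun u v => φ.dist_eq _ _, Subtype.ext hxy⟩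
  choose g hgG hg using htrans
  let _ : Fintype G := Fintype.ofFinite G
  let w : G × Fin n → ℝ := fun p => ((p.1.1 (y 0) : X) : Euc n) p.2
  let σ : Fin 4 → Equiv.Perm (G × Fin n) := fun i =>
    Equiv.prodCongr (Equiv.mulRight (⟨g i, hgG i⟩ : G)) (Equiv.refl _)
  have hw : ∀ i (p : G × Fin n), w (σ i p) = ((p.1.1 (y i) : X) : Euc n) p.2 := by
    intro i p
    simp [w, σ, hg]
  have hrel : ∀ p, w (σ 2 p) + w (σ 3 p) = (1 + a) * w (σ 0 p) + (1 - a) * w (σ 1 p) := by
    intro p
    have h := kite_relation ha (fun i => ((p.1.1 (y i) : X) : Euc n))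
      fun i j => by rw [← hy i j]; exact p.1.2 _ _
    have h' := congrArg (fun v : Euc n => v p.2) h
    simpa [hw] using h'
  have h01 := no_kite a htr w σ hrel
  have : (y 0 : Euc n) = y 1 := by
    ext j
    have := h01 ((1 : G), j)
    simpa [hw] using this
  have h2 := hy 0 1
  rw [this, dist_self] at h2
  have h3 : vdist a 0 1 = 2 := by
    rw [vdist, Real.sqrt_eq_iff_eq_sq (by positivity) (by norm_num)]
    simp [vx, vy]; norm_num
  rw [h3] at h2
  norm_num at h2

theorem exists_transcendental : ∃ a : ℝ, |a| < 1 ∧ Transcendental ℚ a := by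
  by_contra hno
  push Not at hno
  have hsub : Set.Ioo (-1 : ℝ) 1 ⊆ {x : ℝ | IsAlgebraic ℚ x} := fun x hx =>
    not_not.1 (hno x (abs_lt.2 hx))
  have hcount := ((Algebraic.countable ℚ ℝ).mono hsub).le_aleph0
  rw [Cardinal.mk_Ioo_real (by norm_num : (-1 : ℝ) < 1)] at hcount
  exact absurd hcount (not_le.2 Cardinal.aleph0_lt_continuum)

end Vale.Agent.P058.Kite
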