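import Vale.Agent.P058.Kite.Achieve

/-!
Invariance under a finite two-group of translations, and the Hales-Jewett step: a configuration realised at every
scale 1/(d+1) by prescribed types has monochromatic congruent copies in every finite colouring.
-/

open Finset

namespace Vale.Agent.P058.Kite

/-- A finite abelian two-group of translations has monochromatic orbits. -/
theorem achieved_orbit {W G : Type} [Finite W] [AddCommGroup G] [Finite G]
    {ι : Type} [Fintype ι] (v : W × G → EuclideanSpace ℝ ι) (htwo : ∀ g : G, ∃ j : ℕ, 2 ^ j • g = 0)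
    (hinv : ∀ (t : G) (p q : W × G),
      dist (v (p.1, p.2 + t)) (v (q.1, q.2 + t)) = dist (v p) (v q)) :
    Achieved (fun p q => dist (v p) (v q)) (Prod.fst : W × G → W) := by
  classical
  let d : W × G → W × G → ℝ := fun p q => dist (v p) (v q)
  let key : (H : AddSubgroup G) → W × G → W × (G ⧸ H) :=
    fun H p => (p.1, (p.2 : G ⧸ H))
  have hkey : ∀ (H : AddSubgroup G) p q, key H p = key H q ↔ p.1 = q.1 ∧ q.2 - p.2 ∈ H := by
    intro H p q
    simp only [key, Prod.ext_iff, QuotientAddGroup.eq, neg_add_eq_sub]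
  let S : Set (AddSubgroup G) := {H | Achieved d (key H)}
  have hbot : (⊥ : AddSubgroup G) ∈ S := by
    refine (achieved_id v fun _ _ => rfl).mono fun p q h => ?_
    obtain ⟨h1, h2⟩ := (hkey _ _ _).1 h
    rw [AddSubgroup.mem_bot, sub_eq_zero] at h2
    exact Prod.ext h1 h2.symm
  obtain ⟨H, hH, hmax⟩ := (Set.toFinite S).exists_maximal ⟨⊥, hbot⟩
  by_cases htop : H = ⊤
  · refine Achieved.mono hH fun p q h => (hkey _ _ _).2 ⟨h, ?_⟩
    rw [htop]; exact AddSubgroup.mem_top _
  exfalso
  obtain ⟨x, hx⟩ : ∃ x, x ∉ H := by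
    by_contra hno
    push Not at hno
    exact htop (eq_top_iff.2 fun x _ => hno x)
  have hex : ∃ j, 2 ^ j • x ∈ H := by
    obtain ⟨j, hj⟩ := htwo x
    exact ⟨j, hj ▸ H.zero_mem⟩
  obtain ⟨j, hj⟩ : ∃ j, Nat.find hex = j + 1 := by
    refine ⟨Nat.find hex - 1, ?_⟩
    have : Nat.find hex ≠ 0 := fun h0 => hx (by simpa [h0] using Nat.find_spec hex)
    omega
  set s : G := 2 ^ j • x with hs
  have hs1 : s ∉ H := Nat.find_min hex (by omega)
  have hs2 : s + s ∈ H := by
    have := Nat.find_spec hex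
    rw [hj, pow_succ, mul_nsmul', two_nsmul, nsmul_add] at this
    exact this
  let σ : W × G → W × G := fun p => (p.1, p.2 + s)
  obtain ⟨ψ, hψ, hψσ, hψle⟩ := Achieved.join hH σ (fun p q => hinv s p q)
    (fun p q h => by
      obtain ⟨h1, h2⟩ := (hkey _ _ _).1 h
      exact (hkey _ _ _).2 ⟨h1, by simpa [σ] using h2⟩)
    (fun p => (hkey _ _ _).2 ⟨rfl, by
      have : p.2 - (p.2 + s + s) = -(s + s) := by abel
      rw [this]; exact H.neg_mem hs2⟩)
  have hmem : H ⊔ AddSubgroup.zmultiples s ∈ S := by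
    refine Achieved.mono hψ fun p q h => ?_
    obtain ⟨h1, h2⟩ := (hkey _ _ _).1 h
    obtain ⟨y, hy, z, hz, hyz⟩ := AddSubgroup.mem_sup.1 h2
    obtain ⟨k, rfl⟩ := AddSubgroup.mem_zmultiples_iff.1 hz
    have hstep : ∀ (m : ℤ) (g : G), ψ (p.1, g + m • s) = ψ (p.1, g) := by
      intro m g
      induction m using Int.induction_on with
      | zero => simp
      | succ n ih =>
        rw [add_zsmul, one_zsmul, ← add_assoc]
        exact (hψσ (p.1, g + (n : ℤ) • s)).trans ih
      | pred n ih =>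
        rw [← ih, ← hψσ (p.1, g + (-(n : ℤ) - 1) • s)]
        simp only [σ, sub_zsmul, one_zsmul, add_assoc, neg_add_cancel, add_zero]
    have hq : q = (p.1, (p.2 + k • s) + y) := by
      refine Prod.ext h1.symm ?_
      have : q.2 = p.2 + (q.2 - p.2) := by abel
      rw [this, ← hyz]
      abel_nf
    rw [hq, ← hψle (p.1, p.2 + k • s) (p.1, (p.2 + k • s) + y)
      ((hkey _ _ _).2 ⟨rfl, by simpa using hy⟩), hstep]
  have hle := hmax hmem le_sup_left
  exact hs1 (hle (AddSubgroup.mem_sup_right (AddSubgroup.mem_zmultiples s)))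

/-- Types realising a configuration at all scales give monochromatic congruent copies. -/
theorem mono_copy_of_scales {I : Type} [Fintype I] [Nonempty I] (δ : I → I → ℝ)
    (hδ : ∀ i j, 0 ≤ δ i j)
    (hsc : ∀ N : ℕ, ∃ (G : Type) (_ : AddCommGroup G) (_ : Finite G) (ι : Type) (_ : Fintype ι)
      (v : I × G → EuclideanSpace ℝ ι) (W : Fin N → I → G),
      (∀ g : G, ∃ j : ℕ, 2 ^ j • g = 0) ∧
      (∀ (t : G) (p q : I × G),
        dist (v (p.1, p.2 + t)) (v (q.1, q.2 + t)) = dist (v p) (v q)) ∧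
      ∀ (d : Fin N) (i i' : I),
        dist (v (i, W d i)) (v (i', W d i')) ^ 2 = δ i i' ^ 2 / ((d : ℕ) + 1))
    (C : Type) [Finite C] :
    ∃ (ι : Type) (_ : Fintype ι), ∀ c : EuclideanSpace ℝ ι → C, ∃ f : I → EuclideanSpace ℝ ι,
      (∀ i i', dist (f i) (f i') = δ i i') ∧ ∀ i i', c (f i) = c (f i') := by
  classical
  obtain ⟨J, instJ, hJ⟩ := Combinatorics.Line.exists_mono_in_high_dimension I C
  obtain ⟨G, instG, instF, ι0, instι, v, W, htwo, hinv, hW⟩ := hsc (Fintype.card J)
  let V : (J → I) × (J → G) → EuclideanSpace ℝ (J × ι0) := fun p =>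
    WithLp.toLp 2 fun x => v (p.1 x.1, p.2 x.1) x.2
  have hV : ∀ p q, dist (V p) (V q) ^ 2
      = ∑ j, dist (v (p.1 j, p.2 j)) (v (q.1 j, q.2 j)) ^ 2 := by
    intro p q
    rw [EuclideanSpace.dist_eq, Real.sq_sqrt (Finset.sum_nonneg fun i _ => sq_nonneg _),
      Fintype.sum_prod_type]
    refine Finset.sum_congr rfl fun j _ => ?_
    rw [EuclideanSpace.dist_eq, Real.sq_sqrt (Finset.sum_nonneg fun i _ => sq_nonneg _)]
  have hach := achieved_orbit V (fun g => by
      choose k hk using fun j : J => htwo (g j)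
      refine ⟨∑ j, k j, funext fun j => ?_⟩
      rw [Pi.smul_apply, Pi.zero_apply,
        show ∑ i, k i = k j + (∑ i, k i - k j) by
          have := Finset.single_le_sum (f := k) (fun i _ => Nat.zero_le _) (mem_univ j); omega,
        pow_add, mul_comm, mul_nsmul', hk j, nsmul_zero])
    (fun t p q => by
      refine (sq_eq_sq₀ dist_nonneg dist_nonneg).1 ?_
      rw [hV, hV]
      refine Finset.sum_congr rfl fun j _ => ?_
      rw [← hinv (t j) (p.1 j, p.2 j) (q.1 j, q.2 j)]
      rfl)
  obtain ⟨ι, inst, hι⟩ := hach C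
  refine ⟨ι, inst, fun c => ?_⟩
  obtain ⟨f, hf, hm⟩ := hι c
  obtain ⟨l, col, hl⟩ := hJ fun w => c (f (w, 0))
  set S : Finset J := univ.filter fun j => l.idxFun j = none with hS
  have hS0 : 0 < S.card := by
    obtain ⟨j, hj⟩ := l.proper
    exact Finset.card_pos.2 ⟨j, by simp [hS, hj]⟩
  have hSN : S.card - 1 < Fintype.card J := by
    have := Finset.card_le_univ S
    omega
  let d : Fin (Fintype.card J) := ⟨S.card - 1, hSN⟩
  let pt : I → (J → I) × (J → G) := fun i =>
    (l i, fun j => if l.idxFun j = none then W d i else 0)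
  refine ⟨fun i => f (pt i), fun i i' => ?_, fun i i' => ?_⟩
  · rw [hf]
    refine (sq_eq_sq₀ dist_nonneg (hδ i i')).1 ?_
    rw [hV]
    have hj : ∀ j, dist (v ((pt i).1 j, (pt i).2 j)) (v ((pt i').1 j, (pt i').2 j)) ^ 2
        = if l.idxFun j = none then δ i i' ^ 2 / S.card else 0 := by
      intro j
      simp only [pt]
      by_cases h : l.idxFun j = none
      · rw [if_pos h, if_pos h, if_pos h, l.apply_none _ _ h, l.apply_none _ _ h, hW]
        congr 1
        have : ((d : ℕ) : ℝ) + 1 = ((d + 1 : ℕ) : ℝ) := by push_cast; ring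
        rw [this]
        congr 1
        simp only [d]; omega
      · obtain ⟨y, hy⟩ := Option.ne_none_iff_exists'.1 h
        rw [if_neg h, if_neg h, if_neg h, l.apply_some hy, l.apply_some hy, dist_self]
        simp
    rw [Finset.sum_congr rfl fun j _ => hj j, ← Finset.sum_filter, ← hS, Finset.sum_const,
      nsmul_eq_mul]
    field_simp
  · have h0 : ∀ i, c (f (pt i)) = col := fun i => (hm (pt i) (l i, 0) rfl).trans (hl i)
    rw [h0 i, h0 i']

end Vale.Agent.P058.Kite
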